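import Vale.Agent.P022D.Du.Bas

/-!
P022D, block DUAL: generators of the dual of a discrete module, closed submodules, cyclicity.
-/

noncomputable section

namespace Vale.Agent.P022D.Du

open Submodule IsLocalRing

variable {P : Type} [CommRing P] {W : Type*} [AddCommGroup W] [Module P W]

/-- every element is killed by a power of `I` -/
def Disc (I : Ideal P) (W : Type*) [AddCommGroup W] [Module P W] : Prop :=
  ∀ w : W, ∃ k : ℕ, ∀ a ∈ I ^ k, a • w = 0

theorem exists_span_of_card {F X : Type*} [Field F] [Finite F] [AddCommGroup X] [Module F X]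
    [Finite X] {b : ℕ} (h : Nat.card X ≤ Nat.card F ^ b) :
    ∃ x : Fin b → X, span F (Set.range x) = ⊤ := by
  have := Fintype.ofFinite F
  have := Fintype.ofFinite X
  have h1 : Module.finrank F X ≤ b := by
    rw [Nat.card_eq_fintype_card, Nat.card_eq_fintype_card,
      Module.card_eq_pow_finrank (K := F) (V := X)] at h
    exact (Nat.pow_le_pow_iff_right Fintype.one_lt_card).1 h
  let B := Module.finBasis F X
  refine ⟨fun i => if hi : (i : ℕ) < Module.finrank F X then B ⟨i, hi⟩ else 0, ?_⟩
  refine top_le_iff.1 (B.span_eq.ge.trans (span_mono ?_))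
  rintro _ ⟨i, rfl⟩
  exact ⟨⟨i, lt_of_lt_of_le i.2 h1⟩, dif_pos i.2⟩

/-- the dual of a discrete module with small socle has few generators -/
theorem gen_of_card [PA.Base P] (hW : Disc (maximalIdeal P) W)
    [Finite (torsionBySet P W (maximalIdeal P))] {b : ℕ}
    (h : Nat.card (torsionBySet P W (maximalIdeal P)) ≤ Nat.card (ResidueField P) ^ b) :
    ∃ p : (Fin b → P) →ₗ[P] CharacterModule W, Function.Surjective p := by
  have := PA.Base.cpl (P := P)
  have hF : Finite (P ⧸ maximalIdeal P) := PA.Base.fin (P := P)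
  let ρ := CharacterModule.dual (torsionBySet P W (maximalIdeal P)).subtype
  have h1 : maximalIdeal P • (⊤ : Submodule P (CharacterModule W)) ≤ LinearMap.ker ρ := by
    intro c hc
    rw [LinearMap.mem_ker]
    ext w
    exact apply_eq_zero hc fun a ha => (mem_torsionBySet_iff _ _).1 w.2 ⟨a, ha⟩
  have h2 : LinearMap.ker ρ ≤ maximalIdeal P • (⊤ : Submodule P (CharacterModule W)) := by
    intro c hc
    refine mem_smul_top_fg (IsNoetherian.noetherian _) c fun w hw => ?_
    exact congrArg (fun z : CharacterModule (torsionBySet P W (maximalIdeal P)) =>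
      z ⟨w, (mem_torsionBySet_iff _ _).2 fun a => hw a a.2⟩) (LinearMap.mem_ker.1 hc)
  have h3 : Function.Injective (liftQ _ ρ h1) :=
    LinearMap.ker_eq_bot.1 (ker_liftQ_eq_bot _ _ _ h2)
  have h4 := card_le (torsionBySet P W (maximalIdeal P))
  have := h4.1
  have := Finite.of_injective _ h3
  let := Ideal.Quotient.field (maximalIdeal P)
  obtain ⟨x, hx⟩ := exists_span_of_card (F := P ⧸ maximalIdeal P)
    ((Nat.card_le_card_of_injective _ h3).trans (h4.2.trans h))
  choose g hg using fun i => Submodule.Quotient.mk_surjective _ (x i)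
  have := isHausdorff (maximalIdeal P) hW
  have := isPrecomplete_pi (maximalIdeal P) (Fin b)
  refine ⟨Fintype.linearCombination P g,
    surjective_of_mkQ_comp_surjective (I := maximalIdeal P) fun y => ?_⟩
  have hy : y ∈ span (P ⧸ maximalIdeal P) (Set.range x) := hx ▸ mem_top
  obtain ⟨c, rfl⟩ := (mem_span_range_iff_exists_fun _).1 hy
  choose c' hc' using fun i => Ideal.Quotient.mk_surjective (c i)
  refine ⟨c', ?_⟩
  rw [LinearMap.comp_apply, Fintype.linearCombination_apply, map_sum]
  refine Finset.sum_congr rfl fun i _ => ?_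
  rw [map_smul, mkQ_apply, hg, ← hc']
  rfl

theorem card_of_span [IsLocalRing P] [Finite (ResidueField P)] {b : ℕ} (s : Fin b → W)
    (hs : ∀ i, ∀ a ∈ maximalIdeal P, a • s i = 0)
    (h : ∀ w : W, (∀ a ∈ maximalIdeal P, a • w = 0) → w ∈ span P (Set.range s)) :
    Finite (torsionBySet P W (maximalIdeal P)) ∧
      Nat.card (torsionBySet P W (maximalIdeal P)) ≤ Nat.card (ResidueField P) ^ b := by
  choose σ hσ using (Ideal.Quotient.mk_surjective (I := maximalIdeal P))
  let f : (Fin b → ResidueField P) → torsionBySet P W (maximalIdeal P) := fun c =>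
    ⟨∑ i, σ (c i) • s i, sum_mem fun i _ => smul_mem _ _
      ((mem_torsionBySet_iff _ _).2 fun a => hs i a a.2)⟩
  have hf : Function.Surjective f := by
    intro w
    obtain ⟨c, hc⟩ := (mem_span_range_iff_exists_fun P).1
      (h w fun a ha => (mem_torsionBySet_iff _ _).1 w.2 ⟨a, ha⟩)
    refine ⟨fun i => Ideal.Quotient.mk _ (c i), Subtype.ext ?_⟩
    rw [← hc]
    change ∑ i, σ (Ideal.Quotient.mk _ (c i)) • s i = ∑ i, c i • s i
    refine Finset.sum_congr rfl fun i _ => ?_
    rw [← sub_eq_zero, ← sub_smul]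
    exact hs i _ (Ideal.Quotient.eq.1 (hσ _))
  refine ⟨Finite.of_surjective f hf, (Nat.card_le_card_of_surjective f hf).trans (le_of_eq ?_)⟩
  rw [Nat.card_pi]
  simp

theorem finite_dual [PA.Base P] (hW : Disc (maximalIdeal P) W)
    [Finite (torsionBySet P W (maximalIdeal P))] : Module.Finite P (CharacterModule W) := by
  have hF : Finite (ResidueField P) := PA.Base.fin (P := P)
  obtain ⟨p, hp⟩ := gen_of_card hW (b := Nat.card (torsionBySet P W (maximalIdeal P)))
    (Nat.lt_pow_self Finite.one_lt_card).le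
  exact Module.Finite.of_surjective p hp

theorem finite_torsion_pow [PA.Base P] [Finite (torsionBySet P W (maximalIdeal P))] (k : ℕ) :
    Finite (torsionBySet P W (maximalIdeal P ^ k : Ideal P)) := by
  induction k with
  | zero =>
    refine @Finite.of_subsingleton _ ⟨fun x y => Subtype.ext ?_⟩
    have h : ∀ z : torsionBySet P W (maximalIdeal P ^ 0 : Ideal P), (z : W) = 0 := fun z => by
      simpa using (mem_torsionBySet_iff _ _).1 z.2 ⟨1, by simp⟩
    rw [h, h]
  | succ k ih =>
    obtain ⟨s, hs⟩ : (maximalIdeal P).FG := IsNoetherian.noetherian _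
    let f : torsionBySet P W (maximalIdeal P ^ (k + 1) : Ideal P) →+
        (s → torsionBySet P W (maximalIdeal P ^ k : Ideal P)) :=
      { toFun := fun w x => ⟨(x : P) • (w : W), (mem_torsionBySet_iff _ _).2 fun a => by
          rw [← mul_smul]
          exact (mem_torsionBySet_iff _ _).1 w.2 ⟨_, by
            rw [pow_succ]
            exact Ideal.mul_mem_mul a.2 (hs ▸ Ideal.subset_span x.2)⟩⟩
        map_zero' := funext fun x => Subtype.ext (smul_zero _)
        map_add' := fun _ _ => funext fun x => Subtype.ext (smul_add _ _ _) }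
    have h1 : Finite f.ker := by
      refine Finite.of_injective (β := torsionBySet P W (maximalIdeal P))
        (fun w => ⟨(w.1 : W), (mem_torsionBySet_iff _ _).2 fun a => ?_⟩) fun x y h =>
        Subtype.ext (Subtype.ext
          (congrArg (fun z : torsionBySet P W (maximalIdeal P) => (z : W)) h))
      refine span_kill (u := fun x : s => (x : P))
        (fun x => congrArg Subtype.val (congrFun w.2 x)) a ?_
      rw [Subtype.range_coe_subtype]
      exact hs.ge a.2
    have h2 : Finite (_ ⧸ f.ker) :=
      Finite.of_injective _ (QuotientAddGroup.kerLift_injective f)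
    exact Finite.of_equiv _ (AddSubgroup.addGroupEquivQuotientProdAddSubgroup (s := f.ker)).symm

/-- submodules of the dual are closed -/
theorem mem_of_perp [PA.Base P] (hW : Disc (maximalIdeal P) W)
    [Finite (torsionBySet P W (maximalIdeal P))] (N : Submodule P (CharacterModule W))
    (c : CharacterModule W) (h : ∀ w : W, (∀ ν ∈ N, ν w = 0) → c w = 0) : c ∈ N := by
  have := finite_dual hW
  have h1 : ∀ k : ℕ, c ∈ N ⊔ maximalIdeal P ^ k • ⊤ := by
    intro k
    have := finite_torsion_pow (W := W) (P := P) k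
    let ρ := CharacterModule.dual (torsionBySet P W (maximalIdeal P ^ k : Ideal P)).subtype
    have h2 : ρ c ∈ N.map ρ := by
      rw [← Submodule.Quotient.mk_eq_zero]
      refine CharacterModule.eq_zero_of_character_apply fun Ψ => ?_
      obtain ⟨w, hw⟩ := exists_eval (CharacterModule.dual (N.map ρ).mkQ Ψ)
      refine (hw (ρ c)).trans (h w fun ν hν => ?_)
      refine (hw (ρ ν)).symm.trans ?_
      rw [dual_app, mkQ_apply, (Submodule.Quotient.mk_eq_zero _).2 (mem_map_of_mem hν), map_zero]
    obtain ⟨ν, hν, e⟩ := h2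
    refine mem_sup.2 ⟨ν, hν, c - ν, mem_smul_top_fg (IsNoetherian.noetherian _) _ fun w hw => ?_,
      by abel⟩
    rw [sub_apply, sub_eq_zero]
    exact (congrArg (fun z : CharacterModule (torsionBySet P W (maximalIdeal P ^ k : Ideal P)) =>
      z ⟨w, (mem_torsionBySet_iff _ _).2 fun a => hw a a.2⟩) e).symm
  have h3 : N.mkQ c ∈ (⨅ k : ℕ, maximalIdeal P ^ k • (⊤ : Submodule P (_ ⧸ N))) := by
    refine (mem_iInf _).2 fun k => ?_
    obtain ⟨a, ha, b, hb, e⟩ := mem_sup.1 (h1 k)
    rw [← e, map_add, mkQ_apply, (Submodule.Quotient.mk_eq_zero N).2 ha, zero_add]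
    have h4 := mem_map_of_mem (f := N.mkQ) hb
    rw [map_smul''] at h4
    exact smul_mono le_rfl le_top h4
  rw [Ideal.iInf_pow_smul_eq_bot_of_isLocalRing _ (maximalIdeal.isMaximal P).ne_top, mem_bot,
    mkQ_apply, Submodule.Quotient.mk_eq_zero] at h3
  exact h3

/-- cyclic up to `δ`, modulo `π` -/
theorem cyc [PA.Base P] (hW : Disc (maximalIdeal P) W)
    [Finite (torsionBySet P W (maximalIdeal P))] (a : CharacterModule W) (π δ : P)
    (h : ∀ w : W, π • w = 0 → (∀ t : P, a (t • w) = 0) → δ • w = 0) (c : CharacterModule W) :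
    δ • c ∈ span P {a} ⊔ Ideal.span {π} • (⊤ : Submodule P (CharacterModule W)) := by
  refine mem_of_perp hW _ _ fun w hw => ?_
  rw [CharacterModule.smul_apply, h w, map_zero]
  · refine CharacterModule.eq_zero_of_character_apply fun c' => ?_
    exact hw (π • c') (mem_sup_right (smul_mem_smul (Ideal.mem_span_singleton_self π) mem_top))
  · exact fun t => hw (t • a) (mem_sup_left (smul_mem _ t (mem_span_singleton_self a)))

end Vale.Agent.P022D.Du
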