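import Vale.Agent.P022D.Du.Bas

/-!
P022D, block DUAL: the socle condition from surjectivity of the trace; fibres; exactness.
-/

noncomputable section

namespace Vale.Agent.P022D.Du

open Submodule Polynomial

theorem pow_two_pow_mem (a : ℕ) :
    ((1 + X : ℤ[X]) ^ 2 ^ a - 1) ∈ (Ideal.span {(2 : ℤ[X])} ⊔ Ideal.span {X}) ^ (a + 1) := by
  have hX : (X : ℤ[X]) ∈ Ideal.span {(2 : ℤ[X])} ⊔ Ideal.span {X} :=
    mem_sup_right (Ideal.mem_span_singleton_self _)
  have h2 : (2 : ℤ[X]) ∈ Ideal.span {(2 : ℤ[X])} ⊔ Ideal.span {X} :=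
    mem_sup_left (Ideal.mem_span_singleton_self _)
  induction a with
  | zero => simpa using hX
  | succ a ih =>
    have e : ((1 + X : ℤ[X]) ^ 2 ^ (a + 1) - 1) =
        ((1 + X) ^ 2 ^ a - 1) * (((1 + X) ^ 2 ^ a - 1) + 2) := by
      rw [pow_succ, pow_mul]
      ring
    rw [e, pow_succ _ (a + 1)]
    exact Ideal.mul_mem_mul ih (add_mem (Ideal.pow_le_self (Nat.succ_ne_zero a) ih) h2)

/-- the norm element is `X ^ j ν` modulo `2 ^ (j + 1)` -/
theorem exists_nu (j n : ℕ) (h : 2 * j + 1 ≤ n) : ∃ A ν : ℤ[X],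
    ∑ k ∈ Finset.range (2 ^ n), (1 + X : ℤ[X]) ^ k = 2 ^ (j + 1) * A + X ^ j * ν := by
  have h1 := Ideal.sup_pow_add_le_pow_sup_pow (I := Ideal.span {(2 : ℤ[X])})
    (J := Ideal.span {X}) (n := j + 1) (m := j + 1)
    (Ideal.pow_le_pow_right (by omega) (pow_two_pow_mem n))
  rw [Ideal.span_singleton_pow, Ideal.span_singleton_pow] at h1
  obtain ⟨_, h2, _, h3, e⟩ := mem_sup.1 h1
  obtain ⟨A, rfl⟩ := Ideal.mem_span_singleton'.1 h2
  obtain ⟨ν, rfl⟩ := Ideal.mem_span_singleton'.1 h3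
  have h4 : (X : ℤ[X]) ∣ A := by
    rw [X_dvd_iff]
    have h5 := congrArg (eval 0) e
    simp at h5
    rw [coeff_zero_eq_eval_zero]
    exact h5
  obtain ⟨A', rfl⟩ := h4
  refine ⟨A', ν, mul_left_cancel₀ X_ne_zero ?_⟩
  have h6 := mul_geom_sum (1 + X : ℤ[X]) (2 ^ n)
  rw [add_sub_cancel_left] at h6
  rw [h6, ← e]
  ring

variable {P : Type} [CommRing P] {W W' : Type} [AddCommGroup W] [Module P W] [AddCommGroup W']
  [Module P W']

/-- the norm element of the cyclic group generated by `1 + y` -/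
def nm (y : P) (N : ℕ) : P := ∑ k ∈ Finset.range N, (1 + y) ^ k

theorem exists_nu' (j n : ℕ) (h : 2 * j + 1 ≤ n) (y : P) : ∃ A ν : P,
    nm y (2 ^ n) = 2 ^ (j + 1) * A + y ^ j * ν := by
  obtain ⟨A, ν, e⟩ := exists_nu j n h
  refine ⟨aeval y A, aeval y ν, ?_⟩
  have h1 := congrArg (aeval y) e
  simp only [map_sum, map_pow, map_add, map_one, aeval_X, map_mul, map_ofNat] at h1
  rw [nm, h1]

theorem mul_nm (y : P) (N : ℕ) : y * nm y N = (1 + y) ^ N - 1 := by
  have h6 := mul_geom_sum (1 + y) N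
  rwa [add_sub_cancel_left] at h6

/-- the socle condition on the dual -/
theorem soc_of {ι : Type} [Fintype ι] (u : ι → P) (j : ℕ)
    (h : ∀ w : W, (∀ i, u i • w = 0) →
      ∃ w' : W, (∀ i, u i ^ (j + 1) • w' = 0) ∧ (∏ i, u i) ^ j • w' = w) :
    PA.Soc u j (CharacterModule W) := by
  intro c hc
  refine mem_smul_top u c fun w hw => ?_
  obtain ⟨w', h1, rfl⟩ := h w hw
  exact apply_eq_zero hc (span_kill h1)

theorem root_aux {κ : Type} [Fintype κ] (y : κ → P) (n : κ → ℕ) (j : ℕ)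
    (hn : ∀ i, 2 * j + 1 ≤ n i) (hy : ∀ i (w : W), (1 + y i) ^ 2 ^ n i • w = w) :
    ∃ ν : P, (∀ w : W, (2 : P) ^ (j + 1) • w = 0 → ∀ i, y i ^ (j + 1) • ν • w = 0) ∧
      ∀ w : W, (2 : P) • w = 0 → (∏ i, y i) ^ j • ν • w = (∏ i, nm (y i) (2 ^ n i)) • w := by
  classical
  choose A ν e using fun i => exists_nu' j (n i) (hn i) (y i)
  refine ⟨∏ i, ν i, fun w hw i => ?_, fun w hw => ?_⟩
  · have h1 : y i ^ (j + 1) * ν i = ((1 + y i) ^ 2 ^ n i - 1) - y i * A i * 2 ^ (j + 1) := by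
      rw [← mul_nm, e]
      ring
    rw [← Finset.prod_erase_mul _ _ (Finset.mem_univ i), ← mul_smul, mul_left_comm, mul_smul, h1,
      sub_smul, sub_smul, hy, one_smul, sub_self, mul_smul, hw, smul_zero, sub_zero, smul_zero]
  · have h1 : ∀ s : Finset κ, (2 : P) ∣ ∏ i ∈ s, nm (y i) (2 ^ n i) - ∏ i ∈ s, y i ^ j * ν i := by
      intro s
      induction s using Finset.induction_on with
      | empty => simp
      | insert a s ha ih =>
        rw [Finset.prod_insert ha, Finset.prod_insert ha]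
        obtain ⟨z, hz⟩ := ih
        refine ⟨2 ^ j * A a * ∏ i ∈ s, nm (y i) (2 ^ n i) + y a ^ j * ν a * z, ?_⟩
        rw [e a]
        linear_combination (y a ^ j * ν a) * hz
    obtain ⟨z, hz⟩ := h1 Finset.univ
    rw [← mul_smul, ← Finset.prod_pow, ← Finset.prod_mul_distrib, eq_comm, ← sub_eq_zero,
      ← sub_smul, hz, mul_comm, mul_smul, hw, smul_zero]

/-- modules killed by `2`: every invariant is a norm -/
theorem soc_bar {κ : Type} [Fintype κ] (y : κ → P) (n : κ → ℕ) (j : ℕ)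
    (hn : ∀ i, 2 * j + 1 ≤ n i) (hy : ∀ i (w : W), (1 + y i) ^ 2 ^ n i • w = w)
    (h2 : ∀ w : W, (2 : P) • w = 0)
    (htr : ∀ w : W, (∀ i, y i • w = 0) → ∃ w0 : W, w = (∏ i, nm (y i) (2 ^ n i)) • w0) :
    PA.Soc y j (CharacterModule W) := by
  obtain ⟨ν, h3, h4⟩ := root_aux (W := W) y n j hn hy
  refine soc_of y j fun w hw => ?_
  obtain ⟨w0, rfl⟩ := htr w hw
  refine ⟨ν • w0, h3 w0 ?_, h4 w0 (h2 w0)⟩
  rw [pow_succ, mul_smul, h2, smul_zero]

/-- divisible modules: every invariant killed by `π` is the norm of an element killed by `π` -/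
theorem soc_div {κ : Type} [Fintype κ] (u : Option κ → P) (n : κ → ℕ) (j : ℕ)
    (hn : ∀ i, 2 * j + 1 ≤ n i) (hy : ∀ i (w : W), (1 + u (some i)) ^ 2 ^ n i • w = w)
    (h2 : u none ∣ 2) (hdiv : ∀ w : W, ∃ w', u none • w' = w)
    (htr : ∀ w : W, (∀ i, u i • w = 0) →
      ∃ w0 : W, u none • w0 = 0 ∧ w = (∏ i, nm (u (some i)) (2 ^ n i)) • w0) :
    PA.Soc u j (CharacterModule W) := by
  obtain ⟨ν, h3, h4⟩ := root_aux (W := W) (fun i => u (some i)) n j hn hy
  obtain ⟨z, hz⟩ := h2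
  have h5 : ∀ (k : ℕ) (w : W), ∃ w', u none ^ k • w' = w := by
    intro k
    induction k with
    | zero => exact fun w => ⟨w, by simp⟩
    | succ k ih =>
      intro w
      obtain ⟨w1, rfl⟩ := ih w
      obtain ⟨w2, rfl⟩ := hdiv w1
      exact ⟨w2, by rw [pow_succ, mul_smul]⟩
  refine soc_of u j fun w hw => ?_
  obtain ⟨w0, h0, rfl⟩ := htr w hw
  obtain ⟨w1, rfl⟩ := h5 j w0
  have h6 : u none ^ (j + 1) • w1 = 0 := by rw [pow_succ', mul_smul, h0]
  refine ⟨ν • w1, fun i => ?_, ?_⟩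
  · cases i with
    | none => rw [smul_comm, h6, smul_zero]
    | some i =>
      refine h3 w1 ?_ i
      rw [hz, mul_pow, mul_comm, mul_smul, h6, smul_zero]
  · rw [Fintype.prod_option, mul_pow, mul_comm, mul_smul, smul_comm (u none ^ j)]
    refine h4 _ ?_
    rw [hz, mul_comm, mul_smul, h0, smul_zero]

section higman

variable {κ : Type} [Fintype κ] [DecidableEq κ] {H : Type} [CommGroup H] [Fintype H]

theorem act_prod (y : κ → P) (g : κ → H) (ρ : H →* AddMonoid.End W)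
    (hρ : ∀ i w, ρ (g i) w = (1 + y i) • w) (k : κ → ℕ) (w : W) :
    ρ (∏ i, g i ^ k i) w = (∏ i, (1 + y i) ^ k i) • w := by
  have h1 : ∀ i (m : ℕ) (w : W), ρ (g i ^ m) w = (1 + y i) ^ m • w := by
    intro i m
    induction m with
    | zero => intro w; simp
    | succ m ih =>
      intro w
      rw [pow_succ, map_mul, pow_succ, mul_smul, ← hρ, ← ih]
      rfl
  have h2 : ∀ (s : Finset κ) (w : W), ρ (∏ i ∈ s, g i ^ k i) w = (∏ i ∈ s, (1 + y i) ^ k i) • w := by
    intro s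
    induction s using Finset.induction_on with
    | empty => intro w; simp
    | insert a s ha ih =>
      intro w
      rw [Finset.prod_insert ha, Finset.prod_insert ha, map_mul, mul_smul, ← ih, ← h1]
      rfl
  exact h2 _ w

theorem sum_act (y : κ → P) (N : κ → ℕ) (g : κ → H)
    (hg : Function.Bijective fun k : ∀ i, Fin (N i) => ∏ i, g i ^ (k i : ℕ))
    (ρ : H →* AddMonoid.End W) (hρ : ∀ i w, ρ (g i) w = (1 + y i) • w) (w : W) :
    ∑ h : H, ρ h w = (∏ i, nm (y i) (N i)) • w := by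
  rw [← hg.sum_comp fun h => ρ h w]
  simp only [nm, Finset.sum_range]
  rw [Finset.prod_univ_sum, Finset.sum_smul, Fintype.piFinset_univ]
  exact Finset.sum_congr rfl fun k _ => act_prod y g ρ hρ _ w

/-- a Higman operator makes every invariant a norm -/
theorem higman (y : κ → P) (N : κ → ℕ) (g : κ → H)
    (hg : Function.Bijective fun k : ∀ i, Fin (N i) => ∏ i, g i ^ (k i : ℕ))
    (ρ : H →* AddMonoid.End W) (hρ : ∀ i w, ρ (g i) w = (1 + y i) • w) (θ : W → W) (w : W)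
    (hθ : ∑ h : H, ρ h (θ (ρ h⁻¹ w)) = w) (hw : ∀ i, y i • w = 0) :
    w = (∏ i, nm (y i) (N i)) • θ w := by
  have h1 : ∀ h : H, ρ h w = w := by
    intro h
    obtain ⟨k, rfl⟩ := hg.2 h
    refine (act_prod y g ρ hρ _ w).trans ?_
    have h2 : ∀ i (m : ℕ), (1 + y i) ^ m • w = w := by
      intro i m
      induction m with
      | zero => simp
      | succ m ih => rw [pow_succ, mul_smul, add_smul, one_smul, hw, add_zero, ih]
    exact Finset.prod_induction _ (fun a : P => a • w = w)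
      (fun a b ha hb => by rw [mul_smul, hb, ha]) (one_smul _ _) fun i _ => h2 i _
  rw [← sum_act y N g hg ρ hρ]
  simpa only [h1] using hθ.symm

end higman

/-- the fibre map -/
theorem fib {ι : Type} [Fintype ι] (u : ι → P) (D : P) (f : W' →ₗ[P] W)
    (h1 : ∀ i x, u i • f x = 0) (h2 : ∀ w : W, (∀ i, u i • w = 0) → D • w ∈ LinearMap.range f)
    (h3 : ∀ x, f x = 0 → D • x = 0) :
    ∃ β : CharacterModule W →ₗ[P] CharacterModule W', (∀ i x, β (u i • x) = 0) ∧
      (∀ x, β x = 0 → D • x ∈ PA.J1 u • (⊤ : Submodule P (CharacterModule W))) ∧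
      ∀ g : CharacterModule W', D • g ∈ LinearMap.range β := by
  refine ⟨CharacterModule.dual f, fun i c => ?_, fun c hc => ?_, fun c => ?_⟩
  · ext x
    rw [dual_app, CharacterModule.smul_apply, h1, map_zero]
    rfl
  · refine mem_smul_top u _ fun w hw => ?_
    obtain ⟨x, hx⟩ := h2 w hw
    rw [CharacterModule.smul_apply, ← hx]
    exact congrArg (fun z : CharacterModule W' => z x) hc
  · refine exists_dual f _ fun x hx => ?_
    rw [CharacterModule.smul_apply, h3 x hx, map_zero]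

/-- injectivity on the fibres -/
theorem fib_inj {ι : Type} [Fintype ι] (u : ι → P) (D : P) (g : W →ₗ[P] W')
    (h : ∀ z : W', (∀ i, u i • z = 0) → ∃ w : W, (∀ i, u i • w = 0) ∧ g w = D • z)
    (c : CharacterModule W')
    (hc : CharacterModule.dual g c ∈ PA.J1 u • (⊤ : Submodule P (CharacterModule W))) :
    D • c ∈ PA.J1 u • (⊤ : Submodule P (CharacterModule W')) := by
  refine mem_smul_top u _ fun z hz => ?_
  obtain ⟨w, h1, h2⟩ := h z hz
  rw [CharacterModule.smul_apply, ← h2]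
  exact apply_eq_zero hc (span_kill h1)

end Vale.Agent.P022D.Du
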