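import Vale.Agent.P022D.PA.Defs

/-!
P022D, block DUAL: character modules of discrete modules (annihilators, generators, closedness).
-/

noncomputable section

namespace Vale.Agent.P022D.Du

open Submodule IsLocalRing

section card

/-- `ℚ/ℤ → ℝ/ℤ` -/
def qr : AddCircle (1 : ℚ) →+ AddCircle (1 : ℝ) :=
  QuotientAddGroup.map _ _ (Rat.castHom ℝ).toAddMonoidHom (by
    rintro _ ⟨n, rfl⟩
    exact ⟨n, by simp⟩)

theorem qr_inj : Function.Injective qr := by
  rw [injective_iff_map_eq_zero]
  intro x hx
  obtain ⟨q, rfl⟩ := QuotientAddGroup.mk_surjective x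
  obtain ⟨n, hn⟩ := (QuotientAddGroup.eq_zero_iff ((q : ℚ) : ℝ)).1 hx
  refine (QuotientAddGroup.eq_zero_iff q).2 ⟨n, ?_⟩
  have h : ((n : ℚ) : ℝ) = q := by simpa using hn
  simpa using Rat.cast_injective h

theorem card_le (A : Type*) [AddCommGroup A] [Finite A] :
    Finite (CharacterModule A) ∧ Nat.card (CharacterModule A) ≤ Nat.card A := by
  classical
  have := Fintype.ofFinite A
  let f : CharacterModule A → AddChar A ℂ := fun c =>
    { toFun := fun a => (AddCircle.toCircle (qr (c a)) : ℂ)
      map_zero_eq_one' := by simp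
      map_add_eq_mul' := fun a b => by simp [AddCircle.toCircle_add] }
  have hf : Function.Injective f := by
    intro c c' h
    ext a
    exact qr_inj (AddCircle.injective_toCircle one_ne_zero
      (Subtype.ext (congrArg (fun z : AddChar A ℂ => z a) h)))
  refine ⟨Finite.of_injective f hf, (Nat.card_le_card_of_injective f hf).trans ?_⟩
  rw [Nat.card_eq_fintype_card, Nat.card_eq_fintype_card]
  exact AddChar.card_addChar_le _ _

/-- characters of the dual of a finite group are evaluations -/
theorem exists_eval {A : Type*} [AddCommGroup A] [Finite A]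
    (Ψ : CharacterModule (CharacterModule A)) : ∃ a : A, ∀ c, Ψ c = c a := by
  have h1 := card_le A
  have := h1.1
  have h2 := card_le (CharacterModule A)
  have := h2.1
  let ev : A → CharacterModule (CharacterModule A) := fun a =>
    { toFun := fun c => c a
      map_zero' := rfl
      map_add' := fun _ _ => rfl }
  have hi : Function.Injective ev := by
    intro a b h
    rw [← sub_eq_zero]
    refine CharacterModule.eq_zero_of_character_apply fun c => ?_
    rw [map_sub, sub_eq_zero]
    exact congrArg (fun z : CharacterModule (CharacterModule A) => z c) h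
  obtain ⟨a, rfl⟩ := (hi.bijective_of_nat_card_le (h2.2.trans h1.2)).2 Ψ
  exact ⟨a, fun _ => rfl⟩

end card

variable {P : Type*} [CommRing P] {W W' : Type*} [AddCommGroup W] [Module P W] [AddCommGroup W']
  [Module P W']

theorem add_apply (c c' : CharacterModule W) (w : W) : (c + c') w = c w + c' w := rfl

theorem sub_apply (c c' : CharacterModule W) (w : W) : (c - c') w = c w - c' w := rfl

theorem sum_apply {ι : Type*} (s : Finset ι) (c : ι → CharacterModule W) (w : W) :
    (∑ i ∈ s, c i) w = ∑ i ∈ s, c i w := by
  classical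
  induction s using Finset.induction_on with
  | empty => rfl
  | insert a s ha ih => rw [Finset.sum_insert ha, Finset.sum_insert ha, add_apply, ih]

theorem dual_app (f : W →ₗ[P] W') (c : CharacterModule W') (w : W) :
    CharacterModule.dual f c w = c (f w) := rfl

/-- a character which kills the kernel factors -/
theorem exists_dual (f : W →ₗ[P] W') (c : CharacterModule W) (h : ∀ w, f w = 0 → c w = 0) :
    ∃ c' : CharacterModule W', CharacterModule.dual f c' = c := by
  let c0 : CharacterModule (W ⧸ LinearMap.ker f) :=
    QuotientAddGroup.lift (LinearMap.ker f).toAddSubgroup c h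
  obtain ⟨c', hc'⟩ := CharacterModule.dual_surjective_of_injective
    ((LinearMap.ker f).liftQ f le_rfl)
    (LinearMap.ker_eq_bot.1 (ker_liftQ_eq_bot _ _ _ le_rfl)) c0
  refine ⟨c', ?_⟩
  ext w
  exact congrArg (fun z : CharacterModule (W ⧸ LinearMap.ker f) =>
    z (Submodule.Quotient.mk w)) hc'

theorem apply_eq_zero {I : Ideal P} {c : CharacterModule W}
    (hc : c ∈ I • (⊤ : Submodule P (CharacterModule W))) {w : W} (hw : ∀ a ∈ I, a • w = 0) :
    c w = 0 := by
  refine Submodule.smul_induction_on hc (fun a ha c' _ => ?_) fun x y hx hy => ?_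
  · rw [CharacterModule.smul_apply, hw a ha, map_zero]
  · rw [add_apply, hx, hy, add_zero]

theorem span_kill {ι : Type*} {u : ι → P} {w : W} (hw : ∀ i, u i • w = 0) :
    ∀ a ∈ Ideal.span (Set.range u), a • w = 0 := by
  intro a ha
  induction ha using Submodule.span_induction with
  | mem x hx => obtain ⟨i, rfl⟩ := hx; exact hw i
  | zero => exact zero_smul _ _
  | add x y _ _ hx hy => rw [add_smul, hx, hy, add_zero]
  | smul r x _ hx => rw [smul_eq_mul, mul_smul, hx, smul_zero]

/-- the annihilator of the torsion -/
theorem mem_smul_top {ι : Type*} [Finite ι] (u : ι → P) (c : CharacterModule W)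
    (h : ∀ w : W, (∀ i, u i • w = 0) → c w = 0) :
    c ∈ Ideal.span (Set.range u) • (⊤ : Submodule P (CharacterModule W)) := by
  classical
  have := Fintype.ofFinite ι
  obtain ⟨c', rfl⟩ := exists_dual (LinearMap.pi fun i => LinearMap.lsmul P W (u i)) c
    fun w hw => h w fun i => congrFun hw i
  have e : CharacterModule.dual (LinearMap.pi fun i => LinearMap.lsmul P W (u i)) c' =
      ∑ i, u i • CharacterModule.dual (LinearMap.single P (fun _ : ι => W) i) c' := by
    ext w
    rw [sum_apply, dual_app, ← Finset.univ_sum_single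
      ((LinearMap.pi fun i => LinearMap.lsmul P W (u i)) w), map_sum]
    rfl
  rw [e]
  exact sum_mem fun i _ => smul_mem_smul (Ideal.subset_span ⟨i, rfl⟩) mem_top

theorem mem_smul_top_fg {I : Ideal P} (hI : I.FG) (c : CharacterModule W)
    (h : ∀ w : W, (∀ a ∈ I, a • w = 0) → c w = 0) :
    c ∈ I • (⊤ : Submodule P (CharacterModule W)) := by
  obtain ⟨s, rfl⟩ := hI
  have e : Ideal.span (s : Set P) = Ideal.span (Set.range fun x : s => (x : P)) := by
    rw [Subtype.range_coe_subtype]
    rfl
  rw [e] at h ⊢
  exact mem_smul_top _ c fun w hw => h w (span_kill hw)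

theorem dual_exact {W'' : Type*} [AddCommGroup W''] [Module P W''] (f : W →ₗ[P] W')
    (g : W' →ₗ[P] W'') (h : Function.Exact f g) :
    Function.Exact (CharacterModule.dual g) (CharacterModule.dual f) := by
  intro c
  constructor
  · intro hc
    refine exists_dual g c fun w hw => ?_
    obtain ⟨v, rfl⟩ := (h w).1 hw
    exact congrArg (fun z : CharacterModule W => z v) hc
  · rintro ⟨c', rfl⟩
    ext v
    rw [dual_app, dual_app, (h (f v)).2 ⟨v, rfl⟩, map_zero]
    rfl

theorem annihilator_le :
    Module.annihilator P W ≤ Module.annihilator P (CharacterModule W) := by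
  intro a ha
  rw [Module.mem_annihilator] at ha ⊢
  intro c
  ext w
  rw [CharacterModule.smul_apply, ha, map_zero]
  rfl

theorem annihilator_ge :
    Module.annihilator P (CharacterModule W) ≤ Module.annihilator P W := by
  intro a ha
  rw [Module.mem_annihilator] at ha ⊢
  intro w
  refine CharacterModule.eq_zero_of_character_apply fun c => ?_
  exact congrArg (fun z : CharacterModule W => z w) (ha c)

theorem annihilator_eq :
    Module.annihilator P (CharacterModule W) = Module.annihilator P W :=
  le_antisymm annihilator_ge annihilator_le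

theorem isHausdorff (I : Ideal P) (hW : ∀ w : W, ∃ k : ℕ, ∀ a ∈ I ^ k, a • w = 0) :
    IsHausdorff I (CharacterModule W) := by
  refine ⟨fun c hc => ?_⟩
  ext w
  obtain ⟨k, hk⟩ := hW w
  exact apply_eq_zero (SModEq.zero.1 (hc k)) hk

theorem isPrecomplete_pi (I : Ideal P) [IsPrecomplete I P] (ι : Type*) [Finite ι] :
    IsPrecomplete I (ι → P) := by
  classical
  have := Fintype.ofFinite ι
  refine ⟨fun f hf => ?_⟩
  have h1 : ∀ i, ∃ l : P, ∀ n, f n i ≡ l [SMOD (I ^ n • ⊤ : Submodule P P)] := fun i =>
    IsPrecomplete.prec inferInstance (f := fun n => f n i) fun {m n} hmn => by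
      have h2 := SModEq.sub_mem.1 (hf hmn)
      rw [SModEq.sub_mem]
      have h3 := mem_map_of_mem (f := LinearMap.proj (R := P) (φ := fun _ : ι => P) i) h2
      rw [map_smul''] at h3
      exact smul_mono le_rfl le_top h3
  choose l hl using h1
  refine ⟨l, fun n => SModEq.sub_mem.2 ?_⟩
  rw [← Finset.univ_sum_single (f n - l)]
  refine sum_mem fun i _ => ?_
  have h3 := mem_map_of_mem (f := LinearMap.single P (fun _ : ι => P) i) (SModEq.sub_mem.1 (hl i n))
  rw [map_smul''] at h3
  exact smul_mono le_rfl le_top h3

end Vale.Agent.P022D.Du
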